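import Mathlib

namespace Vale.Agent.P209

open Finset

private theorem pow_add_le (a b : ℝ) (hb : 0 ≤ b) (hab : b ≤ a) (n : ℕ) :
    a ^ n + (2 ^ n - 1) * b ^ n ≤ (a + b) ^ n := by
  induction n with
  | zero => simp
  | succ n ih =>
    have ha : 0 ≤ a := le_trans hb hab
    have h1 : b ^ n ≤ a ^ n := pow_le_pow_left₀ hb hab n
    have h2 : 0 ≤ b ^ n := pow_nonneg hb n
    have h3 : (1 : ℝ) ≤ 2 ^ n := one_le_pow₀ (by norm_num)
    have h4 : (a ^ n + (2 ^ n - 1) * b ^ n) * (a + b) ≤ (a + b) ^ n * (a + b) :=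
      mul_le_mul_of_nonneg_right ih (by linarith)
    have h5 : b ^ n * b ≤ a ^ n * b := mul_le_mul_of_nonneg_right h1 hb
    have h6 : b ^ n * b ≤ b ^ n * a := mul_le_mul_of_nonneg_left hab h2
    have h7 : (2 ^ n - 1) * (b ^ n * b) ≤ (2 ^ n - 1) * (b ^ n * a) :=
      mul_le_mul_of_nonneg_left h6 (by linarith)
    rw [pow_succ (a + b), pow_succ a, pow_succ b, pow_succ 2]
    nlinarith

/-- For at most `2^n` balls the two-ball condition implies the volume condition. -/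
theorem volume_of_pairs (n k : ℕ) (hn : 1 ≤ n) (hk2 : 2 ≤ k) (hk : k ≤ 2 ^ n) (R : ℝ)
    (r : Fin k → ℝ) (hr : ∀ i, 0 < r i) (hpair : ∀ i j, i ≠ j → r i + r j < R) :
    ∑ i, r i ^ n < R ^ n := by
  have hne : (univ : Finset (Fin k)).Nonempty := ⟨⟨0, by omega⟩, mem_univ _⟩
  obtain ⟨i0, -, hi0⟩ := Finset.exists_max_image univ r hne
  have hcard : ((univ : Finset (Fin k)).erase i0).card = k - 1 := by
    rw [Finset.card_erase_of_mem (mem_univ _), Finset.card_univ, Fintype.card_fin]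
  have hne' : ((univ : Finset (Fin k)).erase i0).Nonempty := by
    rw [← Finset.card_pos, hcard]; omega
  obtain ⟨j1, hj1, hj1max⟩ := Finset.exists_max_image _ r hne'
  have hj1ne : j1 ≠ i0 := (Finset.mem_erase.1 hj1).1
  have hb : 0 ≤ r j1 := (hr j1).le
  have hab : r j1 ≤ r i0 := hi0 j1 (mem_univ _)
  have hsum : ∑ i ∈ (univ : Finset (Fin k)).erase i0, r i ^ n ≤ ((k - 1 : ℕ) : ℝ) * r j1 ^ n := by
    have := Finset.sum_le_card_nsmul ((univ : Finset (Fin k)).erase i0) (fun i => r i ^ n)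
      (r j1 ^ n) (fun i hi => pow_le_pow_left₀ (hr i).le (hj1max i hi) n)
    rw [hcard, nsmul_eq_mul] at this
    exact this
  have hk' : ((k - 1 : ℕ) : ℝ) ≤ 2 ^ n - 1 := by
    have h1 : ((k - 1 : ℕ) : ℝ) = (k : ℝ) - 1 := by
      rw [Nat.cast_sub (by omega)]; simp
    have h2 : (k : ℝ) ≤ 2 ^ n := by exact_mod_cast hk
    rw [h1]; linarith
  have h3 : ((k - 1 : ℕ) : ℝ) * r j1 ^ n ≤ (2 ^ n - 1) * r j1 ^ n :=
    mul_le_mul_of_nonneg_right hk' (pow_nonneg hb n)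
  have h4 := pow_add_le (r i0) (r j1) hb hab n
  have h5 : (r i0 + r j1) ^ n < R ^ n :=
    pow_lt_pow_left₀ (hpair i0 j1 hj1ne.symm) (by linarith [hr i0]) (by omega)
  rw [← Finset.add_sum_erase univ (fun i => r i ^ n) (mem_univ i0)]
  linarith

end Vale.Agent.P209
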